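import Vale.Agent.P249.Bdl.B1

open MeasureTheory Filter Asymptotics
open scoped ENNReal

theorem Vale.Agent.Results.P249.AllD.result (p : ℝ≥0∞) [Fact (1 ≤ p)] (hp1 : 1 < p)
    (hptop : p ≠ ∞) :
    -- (1) `d_p(n, D) ≤ exp (C (log n) ^ θ)` for all `D > 1` and `θ > θ_p`, where `θ_p = 1 / p` if
    -- `p ≤ 2` and `θ_p = 1 / 2 + 1 / p` if `p > 2`, so that `θ_p < 1`
    (if p.toReal ≤ 2 then 1 / p.toReal else 1 / 2 + 1 / p.toReal) < 1 ∧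
    (∀ D : ℝ, 1 < D → ∀ θ : ℝ,
      (if p.toReal ≤ 2 then 1 / p.toReal else 1 / 2 + 1 / p.toReal) < θ →
      ∃ C : ℝ, 0 < C ∧ ∀ n : ℕ, 2 ≤ n →
        Vale.Agent.P249.Admissible p n D (Vale.Agent.P249.dimLp p n D) ∧
          (Vale.Agent.P249.dimLp p n D : ℝ) ≤ Real.exp (C * Real.log n ^ θ)) ∧
    -- (2) `d_p(n, D) = o(n ^ ε)` for all `D > 1` and `ε > 0`
    (∀ D : ℝ, 1 < D → ∀ ε : ℝ, 0 < ε →
      (fun n : ℕ => (Vale.Agent.P249.dimLp p n D : ℝ)) =o[atTop] (fun n : ℕ => (n : ℝ) ^ ε)) ∧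
    -- (3) in particular `d_p(n, D) = o(n)` for all `D > 1`
    (∀ D : ℝ, 1 < D →
      (fun n : ℕ => (Vale.Agent.P249.dimLp p n D : ℝ)) =o[atTop] (fun n : ℕ => (n : ℝ))) ∧
    -- (4) `d_p(n, D) ≥ c (log n / log log n) ^ (p / 2)` for `p > 2` and all `D ≥ 1`
    (2 < p → ∀ D : ℝ, 1 ≤ D → ∃ c : ℝ, 0 < c ∧ ∀ n : ℕ, 3 ≤ n → ∀ d : ℕ,
      Vale.Agent.P249.Admissible p n D d →
        c * (Real.log n / Real.log (Real.log n)) ^ (p.toReal / 2) ≤ d) := by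
  have hθ1 := Vale.Agent.P249.exponent_lt_one hp1 hptop
  obtain ⟨θ, hθ, hθ'⟩ := exists_between hθ1
  have h2 : ∀ D : ℝ, 1 < D → ∀ ε : ℝ, 0 < ε →
      (fun n : ℕ => (Vale.Agent.P249.dimLp p n D : ℝ)) =o[atTop] (fun n : ℕ => (n : ℝ) ^ ε) :=
    fun D hD ε hε => Vale.Agent.P249.dimLp_isLittleO_rpow_of_subpoly hθ'
      (Vale.Agent.P249.subpoly p hp1 hptop θ hθ D hD) hε
  refine ⟨hθ1, fun D hD θ hθ => Vale.Agent.P249.dimLp_le_of_subpoly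
    (Vale.Agent.P249.subpoly p hp1 hptop θ hθ D hD), h2, fun D hD => ?_,
    fun _ => Vale.Agent.P249.lower_admissible p hptop⟩
  simpa using h2 D hD 1 one_pos
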